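import Vale.Agent.P153.R2.KPOS.H435.K2
import Vale.Agent.P153.R2.KPOS.H460.Inst

/-!
# P153-R2, block KPOS (K2a): the hexagons have connected complements
-/

namespace Vale.Agent.P153.R2.KPOS.H435

open MeasureTheory
open Vale.Agent.P153 Vale.Agent.P153.A Vale.Agent.P153.R2
open Vale.Agent.P153.R2.KPOS.H460 (Hx)
open Vale.Agent.P153.R2.KPOS.Tr (ClC)

theorem CC_Hx (n : ℕ) : CC (Hx n) := by
  intro x y hx hy
  have e : (Hx n : Set (ℤ × ℤ)) = ((GFF.hexa n : Finset (ℤ × ℤ)) : Set (ℤ × ℤ)) := by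
    ext z
    simp only [Hx, GFF.hexa, Finset.coe_filter, Finset.mem_product, Finset.mem_Icc, Set.mem_ofPred_eq,
      abs_le]
    tauto
  rw [e] at hx hy ⊢
  exact s_cc.1 n x y hx hy

/-- Circuits of the class `8ℤ` at the fine scales, in the hexagons. -/
theorem fine_miss_Hx {Q : Measure A.Om} (hQ : IsQ Q) {c : ℝ} {g n : ℕ} (hg : H469.FineS Q c g)
    {z : Pt} (hz : bx z (2 * 2 ^ g) ⊆ Hx n) :
    c ≤ Pr (Cfg (Hx n) (frd (Hx n) 0))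
      {h | ∀ x ∈ bx z (2 ^ g), x ∉ ClC (bx z (2 * 2 ^ g))ᶜ h} := by
  have hf : (Hx (n : ℤ)).Finite := (F2.bx_finite 0 n).subset (H460.Hx_sub n)
  exact fine_miss hQ hg hf (CC_Hx n) hz

/-- The same for an integer radius. -/
theorem k2a_Hx {Q : Measure A.Om} (hQ : IsQ Q) {c : ℝ} {g : ℕ} {R : ℤ} (hg : H469.FineS Q c g)
    (hR : 0 ≤ R) (z : Pt) (hz : bx z (2 * 2 ^ g) ⊆ Hx R) :
    c ≤ Pr (Cfg (Hx R) (frd (Hx R) 0))
      {h | ∀ x ∈ bx z (2 ^ g), x ∉ ClC (bx z (2 * 2 ^ g))ᶜ h} := by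
  obtain ⟨n, rfl⟩ := Int.eq_ofNat_of_zero_le hR
  exact fine_miss_Hx hQ hg hz

end Vale.Agent.P153.R2.KPOS.H435
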