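import Vale.Agent.P153.Bd5.B13
import Vale.Agent.P153.Bd5.B14

/-!
# P153-R2, block KPOS (K2a, K2b), file 1: domination for the law of tau

`Ad V`: the spins which are `+` off `V`. `av D S f`: the average of `f` over the finite set of spins
`S` with the weights `w D`. Conditioned on an event off `V`, the spins in a larger domain are
dominated by the spins with `+` off `V`.
-/

namespace Vale.Agent.P153.R2.KPOS.H435

open Finset MeasureTheory Filter Topology
open Vale.Agent.P153 Vale.Agent.P153.A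

/-- The spins which are `+` off `V`. -/
def Ad (V : Set Pt) : Set Sp := {τ | ∀ x, x ∉ V → τ x = true}

theorem ad_finite {V : Set Pt} (hV : V.Finite) : (Ad V).Finite := E1f.finite_const V hV true

theorem ad_mono {V W : Set Pt} (h : V ⊆ W) : Ad V ⊆ Ad W := fun _ hτ x hx => hτ x fun hx' => hx (h hx')

theorem ad_inn (D : Finset Pt) : Ad (inn D) = Adm D := rfl

/-- The event `C` depends on the spins off `V`. -/
def OffV (V : Set Pt) (C : Set Sp) : Prop :=
  ∀ τ τ' : Sp, (∀ x, x ∉ V → τ x = τ' x) → τ ∈ C → τ' ∈ C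

/-- Weighted sum over a finite set of spins. -/
noncomputable def sm (D : Finset Pt) (s : Finset Sp) (f : Sp → ℝ) : ℝ := ∑ τ ∈ s, (w D τ : ℝ) * f τ

theorem sm_nonneg {D : Finset Pt} {s : Finset Sp} {f : Sp → ℝ} (hf : ∀ τ, 0 ≤ f τ) :
    0 ≤ sm D s f := Finset.sum_nonneg fun τ _ => mul_nonneg (Nat.cast_nonneg _) (hf τ)

theorem sm_sub_const (D : Finset Pt) (s : Finset Sp) (f : Sp → ℝ) (c : ℝ) :
    sm D s (fun τ => f τ - c) = sm D s f - c * sm D s fun _ => 1 := by
  unfold sm
  rw [Finset.mul_sum, ← Finset.sum_sub_distrib]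
  exact Finset.sum_congr rfl fun _ _ => by ring

/-- Weights are positive on the compatible spins of every domain (the group is finite). -/
theorem w_pos (D : Finset Pt) (τ : Sp) : 0 < w D τ := by
  have := (E1f.g_finite D τ).to_subtype
  unfold w
  exact Nat.card_pos

open scoped FinsetFamily in
/-- **Holley's inequality** for two sets of spins. -/
theorem holley_nonneg {D : Finset Pt} {s t : Finset Sp} (hs : ∀ τ ∈ s, τ ∈ Adm D)
    (ht : ∀ τ ∈ t, τ ∈ Adm D) (hinf : ∀ a ∈ s, ∀ b ∈ t, a ⊓ b ∈ s)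
    (hsup : ∀ a ∈ s, ∀ b ∈ t, a ⊔ b ∈ t) {f : Sp → ℝ} (hf : Monotone f) (hf0 : ∀ τ, 0 ≤ f τ) :
    sm D s f * (sm D t fun _ => 1) ≤ sm D t f * sm D s fun _ => 1 := by
  classical
  have hinf' : s ⊼ t ⊆ s := by
    intro x hx
    obtain ⟨a, ha, b, hb, rfl⟩ := Finset.mem_infs.1 hx
    exact hinf a ha b hb
  have hsup' : s ⊻ t ⊆ t := by
    intro x hx
    obtain ⟨a, ha, b, hb, rfl⟩ := Finset.mem_sups.1 hx
    exact hsup a ha b hb
  have key := four_functions_theorem (α := Sp) (β := ℝ)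
    (f₁ := fun τ => if τ ∈ s then (w D τ : ℝ) * f τ else 0)
    (f₂ := fun τ => if τ ∈ t then (w D τ : ℝ) else 0)
    (f₃ := fun τ => if τ ∈ s then (w D τ : ℝ) else 0)
    (f₄ := fun τ => if τ ∈ t then (w D τ : ℝ) * f τ else 0)
    (fun τ => by
      simp only [Pi.zero_apply]
      split_ifs
      · exact mul_nonneg (Nat.cast_nonneg _) (hf0 _)
      · exact le_rfl)
    (fun τ => by
      simp only [Pi.zero_apply]
      split_ifs
      · exact Nat.cast_nonneg _
      · exact le_rfl)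
    (fun τ => by
      simp only [Pi.zero_apply]
      split_ifs
      · exact Nat.cast_nonneg _
      · exact le_rfl)
    (fun τ => by
      simp only [Pi.zero_apply]
      split_ifs
      · exact mul_nonneg (Nat.cast_nonneg _) (hf0 _)
      · exact le_rfl)
    (fun a b => by
      by_cases ha : a ∈ s
      · by_cases hb : b ∈ t
        · simp only [if_pos ha, if_pos hb, if_pos (hinf a ha b hb), if_pos (hsup a ha b hb)]
          have h3 : (w D a : ℝ) * w D b ≤ w D (a ⊔ b) * w D (a ⊓ b) := by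
            exact_mod_cast s_super D a b (hs a ha) (ht b hb)
          have h4 : f a ≤ f (a ⊔ b) := hf le_sup_left
          calc (w D a : ℝ) * f a * w D b = (w D a * w D b) * f a := by ring
            _ ≤ (w D (a ⊔ b) * w D (a ⊓ b)) * f (a ⊔ b) :=
              mul_le_mul h3 h4 (hf0 _) (by positivity)
            _ = w D (a ⊓ b) * (w D (a ⊔ b) * f (a ⊔ b)) := by ring
        · simp only [if_neg hb, mul_zero]
          apply mul_nonneg
          · split_ifs
            · exact Nat.cast_nonneg _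
            · exact le_rfl
          · split_ifs
            · exact mul_nonneg (Nat.cast_nonneg _) (hf0 _)
            · exact le_rfl
      · simp only [if_neg ha, zero_mul]
        apply mul_nonneg
        · split_ifs
          · exact Nat.cast_nonneg _
          · exact le_rfl
        · split_ifs
          · exact mul_nonneg (Nat.cast_nonneg _) (hf0 _)
          · exact le_rfl)
    s t
  have e1 : ∀ (u v : Finset Sp) (g : Sp → ℝ), u ⊆ v → (∀ τ, 0 ≤ g τ) →
      (∑ τ ∈ u, if τ ∈ v then g τ else 0) ≤ ∑ τ ∈ v, g τ := by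
    intro u v g huv hg
    calc (∑ τ ∈ u, if τ ∈ v then g τ else 0) = ∑ τ ∈ u, g τ :=
          Finset.sum_congr rfl fun τ hτ => if_pos (huv hτ)
      _ ≤ _ := Finset.sum_le_sum_of_subset_of_nonneg huv fun τ _ _ => hg τ
  have e2 : ∀ (v : Finset Sp) (g : Sp → ℝ), (∑ τ ∈ v, if τ ∈ v then g τ else 0) = ∑ τ ∈ v, g τ :=
    fun v g => Finset.sum_congr rfl fun τ hτ => if_pos hτ
  simp only [e2] at key
  have h1 := e1 _ _ (fun τ => (w D τ : ℝ)) hinf' fun _ => Nat.cast_nonneg _
  have h2 := e1 _ _ (fun τ => (w D τ : ℝ) * f τ) hsup' fun _ => mul_nonneg (Nat.cast_nonneg _) (hf0 _)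
  unfold sm
  simp only [mul_one]
  refine key.trans ?_
  rw [mul_comm]
  refine mul_le_mul h2 h1 ?_ ?_
  · exact Finset.sum_nonneg fun τ _ => by
      split_ifs
      · exact Nat.cast_nonneg _
      · exact le_rfl
  · exact Finset.sum_nonneg fun τ _ => mul_nonneg (Nat.cast_nonneg _) (hf0 _)

theorem holley {D : Finset Pt} {s t : Finset Sp} (hs : ∀ τ ∈ s, τ ∈ Adm D)
    (ht : ∀ τ ∈ t, τ ∈ Adm D) (hinf : ∀ a ∈ s, ∀ b ∈ t, a ⊓ b ∈ s)
    (hsup : ∀ a ∈ s, ∀ b ∈ t, a ⊔ b ∈ t) {f : Sp → ℝ} (hf : Monotone f) :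
    sm D s f * (sm D t fun _ => 1) ≤ sm D t f * sm D s fun _ => 1 := by
  have key := holley_nonneg hs ht hinf hsup (f := fun τ => f τ - f ⊥)
    (fun a b h => sub_le_sub_right (hf h) _) fun τ => sub_nonneg.2 (hf bot_le)
  rw [sm_sub_const, sm_sub_const] at key
  nlinarith [key]

open Classical in
/-- The spins `+` off `W`, in the event `C`. -/
noncomputable def AdC {W : Set Pt} (hW : W.Finite) (C : Set Sp) : Finset Sp :=
  (ad_finite hW).toFinset.filter (· ∈ C)

open Classical in
theorem mem_AdC {W : Set Pt} {hW : W.Finite} {C : Set Sp} {τ : Sp} :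
    τ ∈ AdC hW C ↔ τ ∈ Ad W ∧ τ ∈ C := by
  unfold AdC
  rw [Finset.mem_filter, Set.Finite.mem_toFinset]

/-- **Domination**: given an event off `V`, the spins are below those with `+` off `V`. -/
theorem dom {D : Finset Pt} {V W : Set Pt} (hV : V.Finite) (hW : W.Finite) (hVW : V ⊆ W)
    (hWD : W ⊆ inn D) {C : Set Sp} (hC : OffV V C) {f : Sp → ℝ} (hf : Monotone f) :
    sm D (AdC hW C) f * (sm D (AdC hV Set.univ) fun _ => 1) ≤
      sm D (AdC hV Set.univ) f * sm D (AdC hW C) fun _ => 1 := by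
  refine holley (fun τ h => ad_mono hWD (mem_AdC.1 h).1)
    (fun τ h => ad_mono (hVW.trans hWD) (mem_AdC.1 h).1) (fun a ha b hb => ?_) (fun a ha b hb => ?_)
    hf
  · rw [mem_AdC] at ha hb ⊢
    have hb' : ∀ x, x ∉ V → (a ⊓ b) x = a x := fun x hx => by
      rw [Pi.inf_apply, hb.1 x hx]
      simp
    refine ⟨fun x hx => ?_, hC a _ (fun x hx => (hb' x hx).symm) ha.2⟩
    rw [hb' x fun h => hx (hVW h)]
    exact ha.1 x hx
  · rw [mem_AdC] at ha hb ⊢
    refine ⟨fun x hx => ?_, Set.mem_univ _⟩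
    rw [Pi.sup_apply, hb.1 x hx]
    simp

/-- Independence of the reference domain. -/
theorem sm_dom {D D' : Finset Pt} (h : D ⊆ D') {s : Finset Sp} (hs : ∀ τ ∈ s, τ ∈ Adm D)
    (f : Sp → ℝ) : sm D' s f = 2 ^ (D' \ D).card * sm D s f := by
  unfold sm
  rw [Finset.mul_sum]
  refine Finset.sum_congr rfl fun τ hτ => ?_
  rw [Dm.w_eq h (hs τ hτ)]
  push_cast
  ring

end Vale.Agent.P153.R2.KPOS.H435
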