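import Vale.Agent.P153.Bd5.B15
import Vale.Agent.P153.Bd5.B23
import Vale.Agent.P153.R2.RDEC.Avg
import Vale.Agent.P153.R2.KPOS.H435.Tau

/-!
# P153-R2, block KPOS (K2a, K2b), file 2: the law of tau under the free law of a simply connected
domain

`tauH h`: the spin `+` where `h = ±1` modulo `8`. For a finite `V` with connected complement,
`Ex (Cfg V (frd V 0)) (f ∘ tauH)` is the weighted average of `f` over the spins `+` off `V`.
-/

namespace Vale.Agent.P153.R2.KPOS.H435

open Finset MeasureTheory Filter Topology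
open Vale.Agent.P153 Vale.Agent.P153.A Vale.Agent.P153.R2
open Vale.Agent.P153.GFF (Ht)
open Vale.Agent.P153.Topo (Conn)

/-- The spin of a height: `+` if it is `±1` modulo `8`. -/
noncomputable def tauH (h : Hg) : Sp := fun x => decide (h x % 8 = 1 ∨ h x % 8 = 7)

theorem tauH_true {h : Hg} {x : Pt} : tauH h x = true ↔ h x % 8 = 1 ∨ h x % 8 = 7 := by
  unfold tauH
  rw [decide_eq_true_eq]

/-- The Lipschitz functions of `D` with values `0`, `1` off `V`. -/
def HtV (D : Finset Pt) (V : Set Pt) : Set (Pt → ℤ) := {φ | φ ∈ Ht D ∧ ∀ x, x ∉ V → φ x = 0 ∨ φ x = 1}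

/-- The pairs of spins of `D` with `tau = +` off `V`. -/
def CfV (D : Finset Pt) (V : Set Pt) : Set A.Om := {ω | ω ∈ Cf D ∧ tau ω ∈ Ad V}

theorem bij_V {D : Finset Pt} (hD : Cc D) {V : Set Pt} (hVD : V ⊆ D) (hCC : CC V) :
    Set.BijOn (fun φ x => enc (φ x)) (HtV D V) (CfV D V) := by
  obtain ⟨hm, hi, hs⟩ := s_bij D hD
  refine ⟨fun φ hφ => ⟨hm hφ.1, fun x hx => ?_⟩, hi.mono fun φ hφ => hφ.1, fun ω hω => ?_⟩
  · show (enc (φ x)).1 = true
    rw [bij_enc_fst]
    rcases hφ.2 x hx with h | h <;> rw [h] <;> norm_num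
  · obtain ⟨φ, hφ, rfl⟩ := hs hω.1
    refine ⟨φ, ⟨hφ, fun x hx => ?_⟩, rfl⟩
    obtain ⟨y, hy⟩ := Infinite.exists_notMem_finset D
    have hyV : y ∉ V := fun h => hy (hVD h)
    have h0 : φ y = 0 ∨ φ y = 1 := Or.inl ((hφ.1 y).1 hy)
    have hmod : ∀ z, z ∉ V → φ z % 4 = 0 ∨ φ z % 4 = 1 := fun z hz => bij_enc_fst.1 (hω.2 z hz)
    refine (hCC y x hyV hx).ind (fun z => φ z = 0 ∨ φ z = 1) h0 ?_
    intro a b _ hab hb h
    have h1 := hmod b hb
    have h2 := abs_le.1 (hφ.2 a b hab)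
    omega

theorem sum_CfV {D : Finset Pt} {V : Set Pt} (hV : V.Finite) (hVD : V ⊆ inn D) (f : Sp → ℝ) :
    ∑ᶠ ω ∈ CfV D V, f (tau ω) = sm D (AdC hV Set.univ) f := by
  classical
  have h1 := E1f.sum_cf D fun ω => (Ad V).indicator f (tau ω)
  have h2 : ∑ᶠ ω ∈ Cf D, (Ad V).indicator f (tau ω) = ∑ᶠ ω ∈ CfV D V, f (tau ω) := by
    have hfin : (CfV D V).Finite := (E1f.cf_finite D).subset fun ω hω => hω.1
    rw [finsum_mem_eq_finite_toFinset_sum _ (E1f.cf_finite D),
      finsum_mem_eq_finite_toFinset_sum _ hfin]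
    refine (Finset.sum_subset (s₁ := hfin.toFinset) ?_ ?_).symm.trans ?_
    · intro ω hω
      rw [Set.Finite.mem_toFinset] at hω ⊢
      exact hω.1
    · intro ω hω hω'
      rw [Set.Finite.mem_toFinset] at hω hω'
      exact Set.indicator_of_notMem (fun h => hω' ⟨hω, h⟩) _
    · refine Finset.sum_congr rfl fun ω hω => ?_
      rw [Set.Finite.mem_toFinset] at hω
      exact Set.indicator_of_mem hω.2 _
  rw [← h2, h1, finsum_mem_eq_finite_toFinset_sum _ (E1f.adm_finite D)]
  have h3 : ∀ τ : Sp, ∑ᶠ s ∈ (G D τ : Set Sp), (Ad V).indicator f (tau (pr τ s)) =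
      (w D τ : ℝ) * (Ad V).indicator f τ := by
    intro τ
    rw [finsum_mem_eq_finite_toFinset_sum _ (E1f.g_finite D τ)]
    show ∑ s ∈ (E1f.g_finite D τ).toFinset, (Ad V).indicator f τ = _
    rw [Finset.sum_const, nsmul_eq_mul, ← Set.ncard_eq_toFinset_card _ (E1f.g_finite D τ)]
    rfl
  simp only [h3]
  unfold sm
  refine (Finset.sum_subset (s₁ := AdC hV Set.univ) ?_ ?_).symm.trans ?_
  · intro τ hτ
    rw [Set.Finite.mem_toFinset]
    exact ad_mono hVD (mem_AdC.1 hτ).1
  · intro τ _ hτ'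
    rw [Set.indicator_of_notMem (fun h => hτ' (mem_AdC.2 ⟨h, Set.mem_univ _⟩)), mul_zero]
  · refine Finset.sum_congr rfl fun τ hτ => ?_
    rw [Set.indicator_of_mem (mem_AdC.1 hτ).1]

open Classical in
/-- The data used for the comparison. -/
noncomputable def Idat (D : Finset Pt) (V : Set Pt) : Pt → Set ℤ := fun x =>
  if x ∈ V then Set.univ else if x ∈ D then {-1, 1} else {-1}

theorem bij_h {D : Finset Pt} {V : Set Pt} (hVD : V ⊆ inn D) :
    Set.BijOn (fun (φ : Pt → ℤ) x => 2 * φ x - 1) (HtV D V) (Cfg V (Idat D V)) := by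
  refine ⟨fun φ hφ => ⟨fun x => ⟨φ x - 1, by ring⟩, fun x => ?_, fun x _ y hxy => ?_⟩,
    fun φ _ ψ _ h => ?_, fun h hh => ?_⟩
  · show 2 * φ x - 1 ∈ Idat D V x
    unfold Idat
    split_ifs with h1 h2
    · exact Set.mem_univ _
    · rcases hφ.2 x h1 with h3 | h3 <;> rw [h3] <;> norm_num
    · rw [(hφ.1.1 x).1 h2]; norm_num
  · have := abs_le.1 (hφ.1.2 x y hxy)
    rw [abs_le]
    constructor <;> simp only <;> omega
  · funext x
    have : 2 * φ x - 1 = 2 * ψ x - 1 := congrFun h x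
    omega
  · obtain ⟨h1, h2, h3⟩ := hh
    have h4 : ∀ x, x ∉ V → h x = -1 ∨ h x = 1 := by
      intro x hx
      have := h2 x
      unfold Idat at this
      rw [if_neg hx] at this
      split_ifs at this
      · exact this
      · exact Or.inl this
    have h5 : ∀ x, x ∉ D → h x = -1 := by
      intro x hx
      have := h2 x
      unfold Idat at this
      rw [if_neg (fun h => hx (hVD h).1), if_neg hx] at this
      exact this
    have h6 : ∀ x, 2 * ((h x + 1) / 2) - 1 = h x := by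
      intro x
      obtain ⟨k, hk⟩ := h1 x
      omega
    refine ⟨fun x => (h x + 1) / 2, ⟨⟨fun v => ⟨fun hv => ?_, fun hv => ?_⟩, fun v u hvu => ?_⟩,
      fun x hx => ?_⟩, funext h6⟩
    · show (h v + 1) / 2 = 0
      rw [h5 v hv]; norm_num
    · obtain ⟨u, hu, huD⟩ := hv
      have hv' : v ∉ V := fun h => huD ((hVD h).2 u hu)
      show (h v + 1) / 2 = 0 ∨ (h v + 1) / 2 = 1
      rcases h4 v hv' with h7 | h7 <;> rw [h7] <;> norm_num
    · show |(h v + 1) / 2 - (h u + 1) / 2| ≤ 1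
      have h7 := h6 v
      have h8 := h6 u
      by_cases hv : v ∈ V
      · have := abs_le.1 (h3 v hv u hvu)
        rw [abs_le]; omega
      · by_cases hu : u ∈ V
        · have := abs_le.1 (h3 u hu v (Topo.adj_symm hvu))
          rw [abs_le]; omega
        · rw [abs_le]
          rcases h4 v hv with h9 | h9 <;> rcases h4 u hu with h10 | h10 <;> omega
    · show (h x + 1) / 2 = 0 ∨ (h x + 1) / 2 = 1
      rcases h4 x hx with h7 | h7 <;> rw [h7] <;> norm_num

theorem tau_enc (φ : Pt → ℤ) : tau (fun x => enc (φ x)) = tauH fun x => 2 * φ x - 1 := by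
  funext x
  rw [Bool.eq_iff_iff, tauH_true]
  show (enc (φ x)).1 = true ↔ _
  rw [bij_enc_fst]
  omega

theorem tauH_off {V : Set Pt} {I : Pt → Set ℤ} (hI : ∀ x, x ∉ V → ∀ a ∈ I x, |a| = 1) {h : Hg}
    (hh : h ∈ Cfg V I) : tauH h ∈ Ad V := by
  intro x hx
  rw [tauH_true]
  have h1 := hI x hx _ (hh.2.1 x)
  rw [abs_eq (by norm_num)] at h1
  omega

theorem idat_abs {D : Finset Pt} {V : Set Pt} : ∀ x, x ∉ V → ∀ a ∈ Idat D V x, |a| = 1 := by
  intro x hx a ha
  unfold Idat at ha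
  rw [if_neg hx] at ha
  split_ifs at ha
  · rcases ha with ha | ha
    · rw [ha]; rfl
    · rw [Set.mem_singleton_iff.1 ha]; rfl
  · rw [Set.mem_singleton_iff.1 ha]; rfl

theorem inn_of_nb {D : Finset Pt} {V : Set Pt} (h : nb V ⊆ D) : V ⊆ inn D := by
  intro x hx
  refine ⟨h (Or.inl hx), fun y hy => ?_⟩
  by_cases hyV : y ∈ V
  · exact h (Or.inl hyV)
  · exact h (Or.inr ⟨hyV, x, hx, hy⟩)

/-- **The law of tau under the free law.** -/
theorem Ex_tau {D : Finset Pt} (hD : Cc D) {V : Set Pt} (hV : V.Finite) (hVD : nb V ⊆ D)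
    (hCC : CC V) (f : Sp → ℝ) : Ex (Cfg V (frd V 0)) (fun h => f (tauH h)) =
      sm D (AdC hV Set.univ) f / sm D (AdC hV Set.univ) fun _ => 1 := by
  classical
  have hin := inn_of_nb hVD
  have b1 := bij_V hD (fun x hx => hVD (Or.inl hx)) hCC
  have b2 := bij_h hin
  have hne : (Cfg V (Idat D V)).Nonempty := by
    refine ⟨fun _ => -1, fun _ => ⟨-1, rfl⟩, fun x => ?_, fun x _ y _ => by simp⟩
    unfold Idat
    split_ifs <;> simp
  have dI : Dat V (Idat D V) := by
    refine ⟨hV, fun x hx => ?_, (D.finite_toSet).subset fun x hx => ?_⟩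
    · unfold Idat
      rw [if_neg hx]
      split_ifs
      · exact Set.toFinite _
      · exact Set.finite_singleton _
    · by_contra hxD
      apply hx
      unfold Idat
      rw [if_neg (fun h => hxD (hin h).1), if_neg (show x ∉ D from hxD)]
      exact Set.subsingleton_singleton
  have e0 : Ex (Cfg V (frd V 0)) (fun h => f (tauH h)) =
      Ex (Cfg V (Idat D V)) fun h => f (tauH h) := by
    set F : Hg → ℝ := fun h => f fun x => if x ∈ V then tauH h x else true with hF
    have e1 : ∀ I : Pt → Set ℤ, (∀ x, x ∉ V → ∀ a ∈ I x, |a| = 1) →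
        Ex (Cfg V I) (fun h => f (tauH h)) = Ex (Cfg V I) F := by
      intro I hI
      refine Ex_congr fun h hh => ?_
      have : tauH h = fun x => if x ∈ V then tauH h x else true := by
        funext x
        split_ifs with hx
        · rfl
        · exact tauH_off hI hh x hx
      rw [hF]
      simp only
      rw [← this]
    rw [e1 _ fun x hx n hn => RD.frd_abs hx hn, e1 _ idat_abs]
    refine Ex_off (RD.frd_dat hV) dI (fun x hx => ?_) (RD.frd_nonempty V) hne fun a b hab => ?_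
    · by_cases h1 : x ∈ V
      · rw [RD.frd_in h1]
        unfold Idat
        rw [if_pos h1]
      · have hxe : x ∈ ebd V := hx.resolve_left h1
        rw [RD.frd_bd hxe]
        unfold Idat
        rw [if_neg h1, if_pos (show x ∈ D from hVD hx)]
    · rw [hF]
      simp only
      congr 1
      funext x
      split_ifs with hx
      · unfold tauH
        rw [hab x (Or.inl hx)]
      · rfl
  rw [e0]
  unfold Ex
  have e2 : ∑ᶠ h ∈ Cfg V (Idat D V), f (tauH h) = ∑ᶠ φ ∈ HtV D V, f (tau fun x => enc (φ x)) :=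
    (finsum_mem_eq_of_bijOn _ b2 fun φ _ => by rw [tau_enc]).symm
  have e3 : ∑ᶠ φ ∈ HtV D V, f (tau fun x => enc (φ x)) = ∑ᶠ ω ∈ CfV D V, f (tau ω) :=
    finsum_mem_eq_of_bijOn _ b1 fun φ _ => rfl
  have e4 : ((Cfg V (Idat D V)).ncard : ℝ) = ((CfV D V).ncard : ℝ) := by
    rw [← b2.image_eq, ← b1.image_eq, b2.injOn.ncard_image, b1.injOn.ncard_image]
  have e5 : ((CfV D V).ncard : ℝ) = sm D (AdC hV Set.univ) fun _ => 1 := by
    rw [← sum_CfV hV hin fun _ => 1]
    have hf : (CfV D V).Finite := (E1f.cf_finite D).subset fun ω hω => hω.1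
    rw [finsum_mem_eq_finite_toFinset_sum _ hf, Finset.sum_const, nsmul_eq_mul, mul_one,
      ← Set.ncard_eq_toFinset_card _ hf]
  rw [e2, e3, e4, e5, sum_CfV hV hin f]

end Vale.Agent.P153.R2.KPOS.H435
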