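import Vale.Agent.P153.R2.KPOS.H435.Bridge
import Vale.Agent.P153.R2.KPOS.H398.Br
import Vale.Agent.P153.R2.KPOS.H469.DensQ

/-!
# P153-R2, block KPOS (K2a, K2b): closed edges of the class `8ℤ` in simply connected domains

`k2a`: increasing local events of the closed edges are more likely under the free law of a finite
domain with connected complement than in the plane. `k2b`: conditioned on the spins off a smaller
domain, the closed edges are dominated by those of the free law of the smaller domain.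
`fine_miss`: circuits of the class `8ℤ` at the fine scales.
-/

namespace Vale.Agent.P153.R2.KPOS.H435

open Finset MeasureTheory Filter Topology
open Vale.Agent.P153 Vale.Agent.P153.A Vale.Agent.P153.R2
open Vale.Agent.P153.F.RSW (Ann pW Wp IL lim_ind IL_Ann)
open Vale.Agent.P153.R2.KPOS.Tr (tz ClC Wp_tz miss_of_Zr)

variable {V W : Set Pt}

/-- A hexagon which contains a given finite set. -/
theorem exists_hexa (hV : V.Finite) : ∃ D : Finset Pt, Cc D ∧ V ⊆ D := by
  obtain ⟨n, hn, -⟩ := s_cc.2.2 hV.toFinset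
  exact ⟨GFF.hexa n, s_cc.1 n, fun x hx => hn n le_rfl (hV.mem_toFinset.2 hx)⟩

theorem sm_pos (D : Finset Pt) (hV : V.Finite) : 0 < sm D (AdC hV Set.univ) fun _ => 1 := by
  unfold sm
  refine Finset.sum_pos (fun τ _ => ?_) ⟨fun _ => true, mem_AdC.2 ⟨fun _ _ => rfl, Set.mem_univ _⟩⟩
  rw [mul_one]
  exact_mod_cast w_pos D τ

/-- The averages increase when the domain becomes smaller. -/
theorem E1_le_Ex (hV : V.Finite) (hCC : CC V) {D D' : Finset Pt} (hD : Cc D) (hVD : nb V ⊆ D)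
    (hDD : D ⊆ D') {f : Sp → ℝ} (hf : Monotone f) :
    E1 D' f ≤ Ex (Cfg V (frd V 0)) fun h => f (tauH h) := by
  have hin : V ⊆ inn D := inn_of_nb hVD
  have hin' : V ⊆ inn D' := hin.trans (Dm.inn_mono hDD)
  have hWf : (inn D').Finite := E1f.inn_finite D'
  rw [Ex_tau hD hV hVD hCC]
  have h1 := dom hV hWf hin' subset_rfl (C := Set.univ) (fun _ _ _ _ => Set.mem_univ _) hf
  have hs : ∀ τ ∈ AdC hV (Set.univ : Set Sp), τ ∈ Adm D := fun τ hτ =>
    ad_mono hin (mem_AdC.1 hτ).1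
  rw [sm_dom hDD hs f, sm_dom hDD hs fun _ => 1] at h1
  have hE : E1 D' f = sm D' (AdC hWf Set.univ) f / sm D' (AdC hWf Set.univ) fun _ => 1 := by
    rw [fkg_E1_eq s_e1]
    have : AdC hWf Set.univ = (s_e1 D').1.toFinset := by
      ext τ
      rw [mem_AdC, Set.Finite.mem_toFinset]
      exact ⟨fun h => h.1, fun h => ⟨h, Set.mem_univ _⟩⟩
    rw [this]
    unfold sm
    simp only [mul_one]
  rw [hE, div_le_div_iff₀ (sm_pos D' hWf) (sm_pos D hV)]
  have hc : (0 : ℝ) < 2 ^ (D' \ D).card := by positivity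
  refine le_of_mul_le_mul_left ?_ hc
  linarith

theorem Pr_eq_tau (hV : V.Finite) (C : Set Sp) :
    Pr (Cfg V (frd V 0)) {h | tauH h ∈ C} =
      Ex (Cfg V (frd V 0)) fun h => C.indicator (fun _ => (1 : ℝ)) (tauH h) := by
  classical
  rw [Pr_eq_Ex (Cfg_finite (RD.frd_dat hV))]
  refine Ex_congr fun h _ => ?_
  unfold R2.ind
  by_cases h1 : tauH h ∈ C
  · rw [if_pos (show h ∈ {h : Hg | tauH h ∈ C} from h1), Set.indicator_of_mem h1]
  · rw [if_neg (show h ∉ {h : Hg | tauH h ∈ C} from h1), Set.indicator_of_notMem h1]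

/-- **(K2a)** Increasing events of the closed edges are more likely in a finite domain. -/
theorem k2a {Q : Measure A.Om} (hQ : IsQ Q) (hV : V.Finite) (hCC : CC V)
    {E : Set (ℤ × ℤ) → Prop} (hE : IL E) :
    pW Q E ≤ Pr (Cfg V (frd V 0)) {h | E (Wp (tauH h))} := by
  obtain ⟨D, hD, hVD⟩ := exists_hexa (nb_finite hV)
  have h1 : Pr (Cfg V (frd V 0)) {h | E (Wp (tauH h))} =
      Ex (Cfg V (frd V 0)) fun h => F.RSW.ind E (tauH h) := Pr_eq_tau hV {s | E (Wp s)}
  rw [h1]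
  refine le_of_tendsto (lim_ind hQ hE.2) ?_
  filter_upwards [eventually_ge_atTop D] with D' hD'
  exact E1_le_Ex hV hCC hD hVD hD' (F.RSW.ind_mono hE.1)

/-- **(K2b)** Domination given the spins off the smaller domain. -/
theorem k2b (hV : V.Finite) (hCC : CC V) (hW : W.Finite) (hCC' : CC W) (hVW : V ⊆ W) {C : Set Sp}
    (hC : OffV V C) {f : Sp → ℝ} (hf : Monotone f) :
    Ex (Cfg W (frd W 0)) (fun h => C.indicator f (tauH h)) ≤
      Pr (Cfg W (frd W 0)) {h | tauH h ∈ C} * Ex (Cfg V (frd V 0)) fun h => f (tauH h) := by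
  classical
  obtain ⟨D, hD, hWD⟩ := exists_hexa (nb_finite hW)
  have hVD : nb V ⊆ D := by
    intro x hx
    rcases hx with hx | ⟨_, y, hy, hxy⟩
    · exact hWD (Or.inl (hVW hx))
    · by_cases hxW : x ∈ W
      · exact hWD (Or.inl hxW)
      · exact hWD (Or.inr ⟨hxW, y, hVW hy, hxy⟩)
  rw [Pr_eq_tau hW, Ex_tau hD hW hWD hCC', Ex_tau hD hW hWD hCC', Ex_tau hD hV hVD hCC]
  have h1 := dom hV hW hVW (inn_of_nb hWD) hC hf
  have e : ∀ g : Sp → ℝ, sm D (AdC hW Set.univ) (C.indicator g) = sm D (AdC hW C) g := by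
    intro g
    unfold sm
    refine (Finset.sum_subset (s₁ := AdC hW C) ?_ ?_).symm.trans ?_
    · intro τ hτ
      exact mem_AdC.2 ⟨(mem_AdC.1 hτ).1, Set.mem_univ _⟩
    · intro τ hτ hτ'
      rw [Set.indicator_of_notMem (fun h => hτ' (mem_AdC.2 ⟨(mem_AdC.1 hτ).1, h⟩)), mul_zero]
    · exact Finset.sum_congr rfl fun τ hτ => by rw [Set.indicator_of_mem (mem_AdC.1 hτ).2]
  rw [e, e, div_mul_div_comm, div_le_div_iff₀ (sm_pos D hW) (mul_pos (sm_pos D hW) (sm_pos D hV))]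
  have h2 := mul_le_mul_of_nonneg_left h1 (sm_pos D hW).le
  linarith

open Classical in
/-- The two codings of the spin agree. -/
theorem tauH_eq {h : Hg} (hh : ∀ x, Odd (h x)) : tauH h = tz h := by
  funext x
  rw [Bool.eq_iff_iff, tauH_true]
  unfold Tr.tz
  rw [decide_eq_true_eq]
  obtain ⟨k, hk⟩ := hh x
  constructor
  · intro h1
    rcases h1 with h1 | h1
    · exact ⟨h x - 1, by omega, by rw [show h x - (h x - 1) = 1 by ring]; rfl⟩
    · exact ⟨h x + 1, by omega, by rw [show h x - (h x + 1) = -1 by ring]; rfl⟩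
  · rintro ⟨m, hm, h1⟩
    rw [abs_eq (by norm_num)] at h1
    omega

/-- **Circuits of the class `8ℤ`** at the fine scales, in every finite domain with connected
complement which contains the annulus. -/
theorem fine_miss {Q : Measure A.Om} (hQ : IsQ Q) {c : ℝ} {g : ℕ} (hg : H469.FineS Q c g)
    (hW : W.Finite) (hCC : CC W) {z : Pt} (hz : bx z (2 * 2 ^ g) ⊆ W) :
    c ≤ Pr (Cfg W (frd W 0)) {h | ∀ x ∈ bx z (2 ^ g), x ∉ ClC (bx z (2 * 2 ^ g))ᶜ h} := by
  have h3 : (1 : ℤ) ≤ 2 ^ g := by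
    have : (0 : ℤ) < 2 ^ g := by positivity
    omega
  have h4 := (hg.1 z.1 z.2).trans (k2a hQ hW hCC (IL_Ann _ _ _))
  push_cast at h4
  refine h4.trans ?_
  rw [Pr_eq_Ex (Cfg_finite (RD.frd_dat hW)), Pr_eq_Ex (Cfg_finite (RD.frd_dat hW))]
  refine Ex_mono fun h hh => ?_
  unfold R2.ind
  by_cases h5 : Ann z.1 z.2 (2 ^ g) (Wp (tauH h))
  · have h6 : h ∈ {h : Hg | ∀ x ∈ bx z (2 ^ g), x ∉ ClC (bx z (2 * 2 ^ g))ᶜ h} := by
      rw [tauH_eq hh.1] at h5
      exact miss_of_Zr h3 (Wp_tz h3 hz hh h5)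
    rw [if_pos (show h ∈ {h : Hg | Ann z.1 z.2 (2 ^ g) (Wp (tauH h))} from h5), if_pos h6]
  · rw [if_neg (show h ∉ {h : Hg | Ann z.1 z.2 (2 ^ g) (Wp (tauH h))} from h5)]
    split_ifs <;> norm_num

end Vale.Agent.P153.R2.KPOS.H435
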